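import Crest.Agent.N49.Co.Up
import Crest.Agent.N49.Rn.Nstg
import Crest.Agent.N49.Tn.Co

/-!
# Row 49 (helper90): the costs of tangent towers and of new families
-/

set_option autoImplicit false

open Matrix Finset

noncomputable section

namespace Crest.Agent.N49.Co

open Po Tw TS

variable {s : ℕ}

theorem sum_R (T : TS Unit) (S : Finset ℕ) : ∑ j ∈ S, T.R j = #{c | T.lev c ∈ S} :=
  sum_card_fiberwise_eq_card_filter _ _ _

/-- **new families** -/
theorem Rw.nw {M0 Y b : ℕ} {T0 : TS Unit} {st0 : T0.C → ℕ} {E : Nw T0} (o : Old T0 st0 M0 s)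
    (w : E.Wf s) (hμ : 1 / 2 ^ Y ≤ E.μ) (hN : Fintype.card E.N ≤ b) (hc : ∀ l, E.ct l ≤ 2 ^ b)
    {π : T0.C → ℤ} (hπ : ∀ c, π c ≠ 0 → T0.lev c = 1) :
    Rw s (b + 2 * Y) T0 π E.T (Sum.elim π 0) := by
  have ok := Ns.ok o w
  have eA : E.T.A = fromBlocks (E.μ⁻¹ • T0.A) 0 (E.T.A.submatrix .inr .inl) E.A := by
    ext (c | n) (c' | n')
    · exact (if_congr Iff.rfl (Ns.co_inl c c') (mul_zero _).symm).trans (mul_ite _ _ _ _).symm
    · exact (if_congr Iff.rfl (Ns.co_inr c n') rfl).trans (ite_self _)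
    · rfl
    · change (if E.T.lev _ = E.T.lev _ then E.A n n' else 0) = E.A n n'
      rw [Ns.lev_T]
      split_ifs with e; exacts [rfl, (Ns.co_new w n n' e).symm]
  have eD : dd (fromBlocks (E.μ⁻¹ • T0.A) 0 0 E.A) 1 =
      fromBlocks (E.μ ^ 2 • T0.D) 0 0 (E.A⁻¹ * E.A⁻¹ᵀ) := by
    rw [D, o.K]; exact Ns.D_blk rfl w.pos o.ok.det w.det
  refine Rw.ext ⟨o.ok.toTri, o.lev, hπ⟩ (M := 1) (r := Sum.elim (fun _ => 0) fun _ => 1) (ι := Sum.inl)
    (A0 := fromBlocks (E.μ⁻¹ • T0.A) 0 0 E.A) (κ := fun _ => E.μ ^ 2) ok.toTri ?_ ?_ ?_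
    (fun c c' e => congrArg _ (of_not_not fun z => e (one_apply_ne z))) ?_
    (Ns.det_blk rfl w.pos o.ok.det w.det).isUnit Sum.inl_injective ?_ (fun _ => rfl) ?_
    (fun _ => rfl) (fun _ => ⟨?_, pow_le_one₀ w.pos.le w.le⟩)
    (fun c c' => congrFun (congrFun eD _) _) (fun l _ => ?_) fun l _ => ?_
  · rw [Ns.lev_T]
    rintro (c | n); exacts [o.lev c, (w.lv n).2]
  · rintro (c | n) <;> simp
  · rw [eA]
    rintro (c | n) (c' | n') <;> simp
  · rw [eA]
    rintro (c | n) (c' | n') <;> simp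
  · rintro (c | n) <;> simp
  · rintro (c | n) <;> simp
  · rw [pow_mul', ← one_pow 2, ← div_pow]
    exact pow_le_pow_left₀ (by positivity) hμ 2
  · rw [sum_R, sum_R, card_filter, card_filter]
    refine (Fintype.sum_sum_type (α₁ := T0.C) (α₂ := E.N) _).trans_le (Nat.add_le_add_left ?_ _)
    refine (sum_le_card_nsmul _ _ 1 fun n _ => by split_ifs <;> simp).trans ?_
    rw [smul_eq_mul, mul_one]
    exact hN.trans (Nat.le_mul_of_pos_right _ (by omega))
  · let e : {n // E.lv n = l} ≃ Bk E.T (Sum.elim (fun _ => 0) fun _ => 1) l (0 + 1) :=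
      Equiv.ofBijective (fun n => ⟨.inr n.1, (congrFun Ns.lev_T _).trans n.2, rfl⟩)
        ⟨fun i j z => Subtype.ext (Sum.inr_injective (Subtype.ext_iff.1 z)), by
          rintro ⟨c | n, a, z⟩
          · simp at z
          · exact ⟨⟨n, (congrFun Ns.lev_T _).symm.trans a⟩, rfl⟩⟩
    rw [prod_range_one, ← th_eqv _ e]
    refine le_trans (le_of_eq (congrArg (th · 0) (Matrix.ext fun i j =>
      congrFun (congrFun eD _) _))) ((hc l).trans (pow_le_pow_left₀ zero_le_two (le_trans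
        (le_self_pow₀ one_le_two (Nat.succ_ne_zero _)) (two_le_fc o.ok.toTri l)) b))

theorem Up.nw {M0 Y b : ℕ} {T0 : TS Unit} {st0 : T0.C → ℕ} {E : Nw T0} (o : Old T0 st0 M0 s)
    (w : E.Wf s) (hμ : 1 / 2 ^ Y ≤ E.μ) (hN : Fintype.card E.N ≤ b) (hc : ∀ l, E.ct l ≤ 2 ^ b)
    (π : T0.C → ℤ) : Up s (b + 2 * Y) T0 π E.T (Sum.elim π 0) :=
  Up.of fun ok => Rw.nw o w hμ hN hc ok.2.2

/-- **tangent towers** -/
theorem Rw.tan' (H : TSt) {τ0 : Type} {T : TS Unit} {S0 : Sh Unit τ0} {st : T.C → ℕ} {n Y Z : ℕ}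
    {Ψ0 : T.Twd S0} {v : Matrix (Option S0.W) (Option S0.W) ℝ} {a : ℝ} (h : T.Tri)
    (hs : ∀ c, T.lev c ≤ s) (hA : T.Adm S0 st Ψ0) (ok : S0.Ok)
    (cW : Fintype.card (Option S0.W) ≤ n) (hv : S0.Tk v a) (a0 : 0 < a) (ha : √a⁻¹ ≤ 2 ^ Y)
    (v0 : 1 / 2 ^ Z ≤ v none none) (v1 : v none none ≤ 1) (b : T.Cw S0 → ℤ) (π : T.C → ℤ)
    (hπ : ∀ c, π c ≠ 0 → T.lev c = 1) :
    Rw s (n * (1 + Y) + Z) T π (T.tan S0 Ψ0 v b) fun x => π x.1.1 := by
  obtain ⟨s', o', eA, eD⟩ := H τ0 T S0 T.lev s Ψ0 v a b (h.cl.stg hs)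
    ⟨hA.gr, fun F m k => ⟨(hA.le F m k).1, (hA.le F m k).1⟩, hA.top⟩ ok hv
  rw [stg_D_lev] at eD
  set T' := T.tan S0 Ψ0 v b
  have lv : ∀ x : T.Tc S0, T'.lev x = T.lev x.1.1 - S0.od x.1.2 := fun x =>
    Finsupp.degree_single _ _
  have av : a ≤ v none none := by simpa [qf, Pi.single_apply] using hv.lo (Pi.single none 1)
  have od0 : ∀ o, S0.od o = 0 → o = none := by
    rintro (_ | w) z
    exacts [rfl, absurd ((Finsupp.degree_eq_zero_iff _).1 z) (ok.ne w)]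
  have ts : ∀ x x' : T.Tc S0, T'.lev x = T'.lev x' →
      (T.ts S0 T.lev s x' ≤ T.ts S0 T.lev s x ↔ S0.od x'.1.2 ≤ S0.od x.1.2) := fun x x' e => by
    have p := x.2
    have p' := x'.2
    have := hs x.1.1
    rw [lv, lv] at e
    rw [TS.ts, TS.ts, Nat.pow_le_pow_iff_right (by omega), e, Nat.add_le_add_iff_right,
      Nat.mul_le_mul_right_iff (by omega)]
    omega
  have lA : ∀ x x', T'.A x x' ≠ 0 → T'.lev x = T'.lev x' := fun x x' z =>
    by_contra fun k => z (T'.blk_A _ _ k)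
  refine Rw.ext ⟨h, hs, hπ⟩ (M := s) (r := fun x => S0.od x.1.2) (A0 := (T'.stg (T.ts S0 T.lev s)).A)
    (ι := fun F => ⟨(F, none), h.lev_pos F⟩) (κ := fun _ => v none none) o'.toTri
    (fun x => (lv x).trans_le ((Nat.sub_le _ _).trans (hs _))) (fun x => x.2.le.trans (hs _))
    (fun x x' z => (ts x x' (lA x x' z)).1 ?_) (fun x x' z => hv.blk _ _ (right_ne_zero_of_mul z))
    (fun x x' => ?_) s'.tri.unit (fun F G z => congrArg (·.1.1) z)
    (fun x => ⟨fun ⟨F, z⟩ => z ▸ rfl, fun z => ⟨x.1.1, Subtype.ext (Prod.ext rfl (od0 _ z).symm)⟩⟩)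
    (fun F => lv _) (fun x z => ?_) (fun _ => rfl) (fun _ => ⟨v0, v1⟩)
    (fun F G => (eD _ _).trans (mul_comm _ _)) (fun l hl => ?_) fun l hl => ?_
  · have := s'.wt x (m := Finsupp.single x' 1) (MvPolynomial.mem_support_iff.2 fun k => z (by
      rw [TS.A, of_apply, k, ite_self]))
    rwa [Finsupp.weight_single, one_smul] at this
  · rw [s'.A]
    by_cases z : T'.A x x' = 0
    · exact (if_congr Iff.rfl z rfl).trans ((ite_self _).trans
        ((if_congr Iff.rfl z rfl).trans (ite_self _)).symm)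
    · refine if_congr ?_ rfl rfl
      rw [le_antisymm_iff, ts x x' (lA x x' z), ts x' x (lA x x' z).symm, ← le_antisymm_iff]
  · have := x.2
    rw [hπ _ z] at this
    omega
  · rw [sum_R, sum_R, sum_R, mul_add]
    refine le_trans (card_le_card_of_injOn (t := (({F | T.lev F ∈ Icc l s} : Finset _) ×ˢ {none}) ∪
      (({F | T.lev F ∈ Icc (l + 1) s} : Finset _) ×ˢ univ)) (fun x : T.Tc S0 => x.1) (fun x k => ?_)
      Subtype.val_injective.injOn) ((card_union_le _ _).trans ?_)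
    · have k : l ≤ T.lev x.1.1 - S0.od x.1.2 := (mem_Icc.1 (mem_filter.1 k).2).1.trans_eq (lv x)
      have := hs x.1.1
      have := x.2
      by_cases z : S0.od x.1.2 = 0
      · exact mem_union_left _ (mem_product.2 ⟨mem_filter.2 ⟨mem_univ _, mem_Icc.2
          (show l ≤ T.lev x.1.1 ∧ T.lev x.1.1 ≤ s by omega)⟩,
          mem_singleton.2 (od0 _ z)⟩)
      · exact mem_union_right _ (mem_product.2 ⟨mem_filter.2 ⟨mem_univ _, mem_Icc.2
          (show l + 1 ≤ T.lev x.1.1 ∧ T.lev x.1.1 ≤ s by omega)⟩,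
          mem_univ _⟩)
    · rw [card_product, card_product, card_singleton, mul_one, card_univ, mul_comm]
      exact Nat.add_le_add_left ((Nat.mul_le_mul_right _ (cW.trans
        (Nat.le_mul_of_pos_right _ (by omega)))).trans (Nat.le_add_right _ _)) _
  · obtain ⟨l1, l2⟩ := mem_Icc.1 hl
    let g : ℕ → ℝ := fun j => (√a⁻¹ ^ T.R j * T.ct j) ^ n
    have a1 : 1 ≤ √a⁻¹ := Real.one_le_sqrt.2 ((one_le_inv₀ a0).2 (av.trans v1))
    have g1 : ∀ j, 1 ≤ √a⁻¹ ^ T.R j * T.ct j := fun j =>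
      one_le_mul_of_one_le_of_one_le (one_le_pow₀ a1) (one_le_ct h j)
    have key : ∀ t, th ((dd (T'.stg (T.ts S0 T.lev s)).A T'.K).submatrix
        (Subtype.val : Bk T' (fun x => S0.od x.1.2) l (t + 1) → _) Subtype.val) 0 ≤
          g (l + 1 + t) := fun t => by
      have k := Ctl.th_kron (h.pd_Dl (l + 1 + t)) a0 (K := v) hv.lo
        (J := Bk T' (fun x => S0.od x.1.2) l (t + 1))
        (f := fun p => ⟨p.1.1.1, by
          have a := (lv p.1).symm.trans p.2.1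
          have c : S0.od p.1.1.2 = t + 1 := p.2.2
          omega⟩)
        (g := fun p => p.1.1.2)
        (fun p q e e' => Subtype.ext (Subtype.ext (Prod.ext (congrArg Subtype.val e') e)))
        (s'.tri.pd_D.submatrix Subtype.val_injective) fun p q => eD p.1 q.1
      have u := th_scale (h.pd_Dl (l + 1 + t)) a0 (av.trans v1) 0
      rw [card_lev, ← Real.sqrt_inv] at u
      exact k.trans ((pow_le_pow_left₀ (th_nonneg _ _) u _).trans (pow_le_pow_right₀ (g1 _) cW))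
    have g2 : ∀ j, s < j → g j = 1 := fun j k => by
      have z : ∀ c, T.lev c ≠ j := fun c => ((hs c).trans_lt k).ne
      simp [g, Tco.ct_emp T z, Tco.R_emp T z]
    refine (prod_le_prod (fun _ _ => th_nonneg _ _) fun t _ => key t).trans ?_
    have e := prod_Ico_eq_prod_range g (l + 1) (l + 1 + s)
    rw [Nat.add_sub_cancel_left] at e
    rw [← e, ← prod_subset (s₁ := Icc (l + 1) s) (fun j => by simp only [mem_Icc, mem_Ico]; omega)
      fun j p k => g2 j (by simp only [mem_Icc, mem_Ico] at p k; omega), prod_pow, prod_mul_distrib,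
      prod_pow_eq_pow_sum, mul_comm n, pow_mul, pow_add (fc s T l), pow_one, mul_comm]
    have p := one_le_prod h (Icc (l + 1) s)
    refine pow_le_pow_left₀ (by positivity) (mul_le_mul (le_mul_of_one_le_right (by positivity)
      (one_le_pow₀ one_le_two)) ?_ (by positivity) (zero_le_one.trans (one_le_fc h l))) _
    exact pw_fc h l Y (Real.sqrt_nonneg _) ha
      (sum_le_sum_of_subset (Icc_subset_Icc_left (Nat.le_succ l)))

theorem Rw.tan (H : TSt) {τ0 : Type} {T : TS Unit} {S0 : Sh Unit τ0} {st : T.C → ℕ} {n Y : ℕ}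
    {Ψ0 : T.Twd S0} {v : Matrix (Option S0.W) (Option S0.W) ℝ} {a : ℝ} (h : T.Tri)
    (hs : ∀ c, T.lev c ≤ s) (hA : T.Adm S0 st Ψ0) (ok : S0.Ok) (hn : Fintype.card S0.W ≤ n)
    (hv : S0.Tk v a) (ha : 1 / 2 ^ Y ≤ a) (v1 : v none none ≤ 1) (b : T.Cw S0 → ℤ) (π : T.C → ℤ)
    (hπ : ∀ c, π c ≠ 0 → T.lev c = 1) :
    Rw s ((n + 1) * (1 + Y) + Y) T π (T.tan S0 Ψ0 v b) fun x => π x.1.1 :=
  Rw.tan' H h hs hA ok (by rw [Fintype.card_option]; omega) hv (lt_of_lt_of_le (by positivity) ha)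
    (Rf.sqrt_le_two_pow (inv_le ha)) (ha.trans (by
      simpa [qf, Pi.single_apply] using hv.lo (Pi.single none 1))) v1 b π hπ

theorem Up.tan (H : TSt) {τ0 : Type} {T : TS Unit} {S0 : Sh Unit τ0} {st : T.C → ℕ} {n Y : ℕ}
    {Ψ0 : T.Twd S0} {v : Matrix (Option S0.W) (Option S0.W) ℝ} {a : ℝ} (h : T.Tri)
    (hs : ∀ c, T.lev c ≤ s) (hA : T.Adm S0 st Ψ0) (ok : S0.Ok) (hn : Fintype.card S0.W ≤ n)
    (hv : S0.Tk v a) (ha : 1 / 2 ^ Y ≤ a) (v1 : v none none ≤ 1) (b : T.Cw S0 → ℤ) (π : T.C → ℤ)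
    (hπ : ∀ c, π c ≠ 0 → T.lev c = 1) :
    Up s ((n + 1) * (1 + Y) + Y) T π (T.tan S0 Ψ0 v b) fun x => π x.1.1 :=
  Up.of fun _ => Rw.tan H h hs hA ok hn hv ha v1 b π hπ

end Crest.Agent.N49.Co

end
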