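import Crest.Agent.N49.Rf.Dem0
import Crest.Agent.N49.Rf.G1
import Crest.Agent.N49.Rf.New

/-!
# Row 49 (helper90): costs of block triangular structures
-/

set_option autoImplicit false

open Matrix Finset

noncomputable section

namespace Crest.Agent.N49.Co

open Po Sp Tw

section mat
variable {a b : Type} [Fintype a] [Fintype b] [DecidableEq a] [DecidableEq b]

/-- the dual form -/
def dd (A K : Matrix a a ℝ) : Matrix a a ℝ := A⁻¹ * K * A⁻¹ᵀ

theorem dd_pd {A K : Matrix a a ℝ} (h : IsUnit A.det) (k : K.PosDef) : (dd A K).PosDef := by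
  have := posDef_conj k (B := A⁻¹ᵀ) (mulVec_injective_iff_isUnit.2
    ((isUnit_iff_isUnit_det _).2 (by rw [det_transpose]; exact isUnit_nonsing_inv_det _ h)))
  rwa [transpose_transpose] at this

theorem dd_inv {A : Matrix a a ℝ} (h : IsUnit A.det) (K : Matrix a a ℝ) :
    (dd A K)⁻¹ = Aᵀ * K⁻¹ * A := by
  rw [dd, Matrix.mul_inv_rev, Matrix.mul_inv_rev, ← transpose_nonsing_inv,
    nonsing_inv_nonsing_inv _ h, Matrix.mul_assoc]

theorem dd_eqv (A K : Matrix b b ℝ) (e : a ≃ b) :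
    dd (A.submatrix e e) (K.submatrix e e) = (dd A K).submatrix e e := by
  rw [dd, dd, inv_submatrix_equiv, transpose_submatrix, submatrix_mul_equiv, submatrix_mul_equiv]

omit [DecidableEq a] [DecidableEq b] in
theorem sub_mul {f : a → b} (hf : Function.Injective f) {A : Matrix b b ℝ}
    (h : ∀ i c, A (f i) c ≠ 0 → c ∈ Set.range f) (B : Matrix b b ℝ) :
    (A * B).submatrix f f = A.submatrix f f * B.submatrix f f := by
  ext i k
  exact (Fintype.sum_of_injective f hf _ _ (fun c hc => mul_eq_zero_of_left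
    (by_contra fun z => hc (h i c z)) _) fun _ => rfl).symm

theorem dd_sub {f : a → b} (hf : Function.Injective f) {A K : Matrix b b ℝ} (u : IsUnit A.det)
    (h : ∀ c c', A c c' ≠ 0 → (c ∈ Set.range f ↔ c' ∈ Set.range f))
    (k : ∀ i c, K (f i) c ≠ 0 → c ∈ Set.range f) : IsUnit (A.submatrix f f).det ∧
      dd (A.submatrix f f) (K.submatrix f f) = (dd A K).submatrix f f := by
  classical
  have e : A.submatrix f f * A⁻¹.submatrix f f = 1 := by
    rw [← sub_mul hf fun i c z => (h _ _ z).1 ⟨i, rfl⟩, mul_nonsing_inv _ u, submatrix_one _ hf]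
  have p : Rw.Blk (fun c => if c ∈ Set.range f then 1 else 0) A⁻¹ :=
    blk_inv fun c c' n => by_contra fun z => n (by simp only [h c c' z])
  refine ⟨isUnit_det_of_right_inverse e, ?_⟩
  rw [dd, dd, inv_eq_right_inv e, Matrix.mul_assoc A⁻¹, sub_mul hf fun i c z => by_contra fun n =>
    z (p _ _ (by simp only [if_neg n]; simp)), sub_mul hf k, Matrix.mul_assoc]
  rfl

theorem two {A1 K1 : Matrix a a ℝ} (L : Matrix b a ℝ) {A2 K2 : Matrix b b ℝ} (h1 : IsUnit A1.det)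
    (h2 : IsUnit A2.det) (k1 : K1.PosDef) (k2 : K2.PosDef) (k : (fromBlocks K1 0 0 K2).PosDef)
    (S : Set (a → ℤ)) : IsUnit (fromBlocks A1 0 L A2).det ∧
    th (dd (fromBlocks A1 0 L A2) (fromBlocks K1 0 0 K2)) 0 ≤ th (dd A2 K2) 0 * th (dd A1 K1) 0 ∧
    gk (dd (fromBlocks A1 0 L A2) (fromBlocks K1 0 0 K2))⁻¹ {n | n ∘ Sum.inl ∈ S} ≤
      th (dd A2 K2) 0 * gk (dd A1 K1)⁻¹ S := by
  have u : IsUnit (fromBlocks A1 0 L A2).det := by rw [det_fromBlocks_zero₁₂]; exact h1.mul h2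
  have e : (fromBlocks A1 0 L A2)⁻¹ = fromBlocks A1⁻¹ 0 (-(A2⁻¹ * L * A1⁻¹)) A2⁻¹ :=
    inv_eq_left_inv (by
      simp [fromBlocks_multiply, nonsing_inv_mul _ h1, nonsing_inv_mul _ h2, Matrix.mul_assoc])
  have e1 : (dd (fromBlocks A1 0 L A2) (fromBlocks K1 0 0 K2)).toBlocks₁₁ = dd A1 K1 := by
    simp [dd, e, fromBlocks_multiply, fromBlocks_transpose]
  have e2 : (dd (fromBlocks A1 0 L A2) (fromBlocks K1 0 0 K2))⁻¹.toBlocks₂₂⁻¹ = dd A2 K2 := by
    rw [← inv_inv' (dd_pd h2 k2), dd_inv u, dd_inv h2, TS.inv_blocks k1 k2]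
    simp [fromBlocks_multiply, fromBlocks_transpose]
  have p := dd_pd u k
  exact ⟨u, e1 ▸ e2 ▸ th_new p, e1 ▸ e2 ▸ gk_new p S⟩

end mat

theorem blocks (M : ℕ) (β : ℕ → ℝ) (γ : ℝ) : ∀ (d : Type) [Fintype d] [DecidableEq d] (r : d → ℕ)
    (A K : Matrix d d ℝ) (π : d → ℤ), (∀ c, r c ≤ M) → (∀ c c', A c c' ≠ 0 → r c' ≤ r c) →
    (∀ c c', K c c' ≠ 0 → r c = r c') → K.PosDef → (∀ c, π c ≠ 0 → r c = 0) →
    (∀ t ≤ M, ∀ (J : Type) [Fintype J] [DecidableEq J] (f : J → d), Function.Injective f →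
      (∀ c, c ∈ Set.range f ↔ r c = t) → IsUnit (A.submatrix f f).det ∧
        th (dd (A.submatrix f f) (K.submatrix f f)) 0 ≤ β t ∧
        (t = 0 → gk (dd (A.submatrix f f) (K.submatrix f f))⁻¹ {n | π ∘ f ⬝ᵥ n = 0} ≤ γ)) →
    IsUnit A.det ∧ th (dd A K) 0 ≤ (∏ t ∈ range M, β (t + 1)) * β 0 ∧
      gk (dd A K)⁻¹ {n | π ⬝ᵥ n = 0} ≤ (∏ t ∈ range M, β (t + 1)) * γ := by
  induction M with
  | zero =>
    intro d _ _ r A K π hr _ _ _ _ H
    obtain ⟨u, v, w⟩ := H 0 le_rfl d id (fun _ _ e => e) fun c => by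
      have := hr c; simp; omega
    exact ⟨u, by simpa using v, by simpa using w rfl⟩
  | succ M ih =>
    intro d _ _ r A K π hr hA hK pd hπ H
    let v : {c // r c ≤ M} → d := Subtype.val
    let w : {c // ¬ r c ≤ M} → d := Subtype.val
    let e := Equiv.sumCompl fun c => r c ≤ M
    obtain ⟨u1, a1, g1⟩ := ih _ (r ∘ v) (A.submatrix v v) (K.submatrix v v) (π ∘ v) (fun c => c.2)
      (fun c c' => hA _ _) (fun c c' => hK _ _) (pd.submatrix Subtype.val_injective)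
      (fun c => hπ _) fun t ht J _ _ f hf k => H t (by omega) J (v ∘ f)
        (Subtype.val_injective.comp hf) fun c => ⟨fun ⟨j, z⟩ => z ▸ (k _).1 ⟨j, rfl⟩, fun z =>
          let ⟨j, y⟩ := (k ⟨c, z.le.trans ht⟩).2 z; ⟨j, congrArg v y⟩⟩
    obtain ⟨u2, a2, -⟩ := H (M + 1) le_rfl _ w Subtype.val_injective fun c =>
      ⟨fun ⟨j, z⟩ => by have := j.2; have := hr j.1; rw [← z]; change r j.1 = _; omega,
        fun z => ⟨⟨c, by omega⟩, rfl⟩⟩
    have eA : A.submatrix e e = fromBlocks (A.submatrix v v) 0 (A.submatrix w v)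
        (A.submatrix w w) := by
      ext (i | i) (j | j) <;> try rfl
      exact by_contra fun z => j.2 ((hA _ _ z).trans i.2)
    have eK : K.submatrix e e = fromBlocks (K.submatrix v v) 0 0 (K.submatrix w w) := by
      ext (i | i) (j | j) <;> try rfl
      · exact by_contra fun z => j.2 ((hK _ _ z).ge.trans i.2)
      · exact by_contra fun z => i.2 ((hK _ _ z).le.trans j.2)
    obtain ⟨u, x, y⟩ := two (A.submatrix w v) u1 u2 (pd.submatrix Subtype.val_injective)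
      (pd.submatrix Subtype.val_injective) (eK ▸ pd.submatrix e.injective)
      {n | π ∘ v ⬝ᵥ n = 0}
    rw [← eA, ← eK, dd_eqv] at x y
    rw [← eA, det_submatrix_equiv_self] at u
    rw [th_eqv] at x
    have b0 := (th_nonneg _ _).trans a2
    have z : {n : _ ⊕ _ → ℤ | n ∘ Sum.inl ∈ {n | π ∘ v ⬝ᵥ n = 0}} =
        {n | n ∘ e.symm ∈ {n | π ⬝ᵥ n = 0}} := by
      ext n
      have : π ⬝ᵥ n ∘ e.symm = π ∘ v ⬝ᵥ n ∘ Sum.inl := by
        rw [dotProduct, ← e.sum_comp, Fintype.sum_sum_type, sum_eq_zero (s := univ)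
          (f := fun i : {c // ¬ r c ≤ M} => π (e (.inr i)) * (n ∘ e.symm) (e (.inr i))) fun i _ => by
            rw [show π (e (.inr i)) = 0 from by_contra fun z => i.2 ((hπ _ z).trans_le
              (Nat.zero_le _)), zero_mul], add_zero]
        exact sum_congr rfl fun i _ => by rw [Function.comp, e.symm_apply_apply]; rfl
      simp only [Set.mem_ofPred_eq, this]
    rw [inv_submatrix_equiv, z, gk_eqv] at y
    rw [prod_range_succ, mul_right_comm, mul_right_comm _ _ γ, mul_comm _ (β (M + 1)),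
      mul_comm _ (β (M + 1))]
    exact ⟨u, x.trans (mul_le_mul a2 a1 (th_nonneg _ _) b0),
      y.trans (mul_le_mul a2 g1 (gk_nonneg _ _) b0)⟩

/-- the block of level `l` and rank `t` -/
abbrev Bk {σ : Type} (T : TS σ) (r : T.C → ℕ) (l t : ℕ) : Type := {c // T.lev c = l ∧ r c = t}

/-- **the costs of a structure that is triangular for a rank `r`**; `A0` is the diagonal part -/
theorem ext {σ : Type} {T : TS σ} (h : T.Tri) {r : T.C → ℕ} {M : ℕ} (hr : ∀ c, r c ≤ M)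
    (hA : ∀ c c', T.A c c' ≠ 0 → r c' ≤ r c) (hK : ∀ c c', T.K c c' ≠ 0 → r c = r c')
    {A0 : Matrix T.C T.C ℝ} (h0 : ∀ c c', A0 c c' = if r c = r c' then T.A c c' else 0)
    (u : IsUnit A0.det) {π : T.C → ℤ} (hπ : ∀ c, π c ≠ 0 → r c = 0) (l : ℕ) :
    T.ct l ≤ (∏ t ∈ range M, th ((dd A0 T.K).submatrix (Subtype.val : Bk T r l (t + 1) → _)
        Subtype.val) 0) * th ((dd A0 T.K).submatrix (Subtype.val : Bk T r l 0 → _) Subtype.val) 0 ∧
    (l = 1 → T.g1 π ≤ (∏ t ∈ range M, th ((dd A0 T.K).submatrix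
      (Subtype.val : Bk T r l (t + 1) → _) Subtype.val) 0) *
      gk ((dd A0 T.K).submatrix (Subtype.val : Bk T r l 0 → _) Subtype.val)⁻¹
        {n | (fun c : Bk T r l 0 => π c.1) ⬝ᵥ n = 0}) := by
  let v : {c // T.lev c = l} → T.C := Subtype.val
  have lA : ∀ c c', T.A c c' ≠ 0 → T.lev c = T.lev c' := fun c c' z =>
    by_contra fun n => z (T.blk_A _ _ n)
  have rv : ∀ c, c ∈ Set.range v ↔ T.lev c = l := fun c => ⟨fun ⟨j, z⟩ => z ▸ j.2, fun z => ⟨⟨c, z⟩, rfl⟩⟩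
  obtain ⟨-, x, y⟩ := blocks M (fun t => th ((dd A0 T.K).submatrix (Subtype.val : Bk T r l t → _)
    Subtype.val) 0) (gk ((dd A0 T.K).submatrix (Subtype.val : Bk T r l 0 → _) Subtype.val)⁻¹
      {n | (fun c : Bk T r l 0 => π c.1) ⬝ᵥ n = 0}) _ (r ∘ v) (T.A.submatrix v v)
    (T.K.submatrix v v) (π ∘ v) (fun c => hr _) (fun c c' => hA _ _) (fun c c' => hK _ _)
    (h.pd.submatrix Subtype.val_injective) (fun c => hπ _) fun t _ J _ _ f hf k => by
      have rf : ∀ c, c ∈ Set.range (v ∘ f) ↔ T.lev c = l ∧ r c = t := fun c =>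
        ⟨fun ⟨j, z⟩ => z ▸ ⟨(f j).2, (k _).1 ⟨j, rfl⟩⟩, fun z =>
          let ⟨j, y⟩ := (k ⟨c, z.1⟩).2 z.2; ⟨j, congrArg v y⟩⟩
      have inj : Function.Injective (v ∘ f) := Subtype.val_injective.comp hf
      obtain ⟨p, q⟩ := dd_sub (f := v ∘ f) inj u (fun c c' z => by
        rw [h0] at z
        split_ifs at z with i
        · rw [rf, rf, i, lA _ _ z]
        · exact absurd rfl z) (K := T.K) fun i c z => (rf c).2
          (by rw [← h.blk _ _ z, ← hK _ _ z]; exact (rf _).1 ⟨i, rfl⟩)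
      have eA : A0.submatrix (v ∘ f) (v ∘ f) = (T.A.submatrix v v).submatrix f f := by
        ext i j
        exact (h0 _ _).trans (if_pos (((rf _).1 ⟨i, rfl⟩).2.trans ((rf _).1 ⟨j, rfl⟩).2.symm))
      let e : J ≃ Bk T r l t := Equiv.ofBijective (fun j => ⟨v (f j), (rf _).1 ⟨j, rfl⟩⟩)
        ⟨fun i j z => inj (congrArg (fun c : Bk T r l t => c.1) z), fun c =>
          let ⟨j, y⟩ := (rf c.1).2 c.2; ⟨j, Subtype.ext y⟩⟩
      rw [eA] at p q
      have q' : dd ((T.A.submatrix v v).submatrix f f) ((T.K.submatrix v v).submatrix f f) =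
          ((dd A0 T.K).submatrix (Subtype.val : Bk T r l t → _) Subtype.val).submatrix e e := q
      refine ⟨p, by rw [q', th_eqv], ?_⟩
      rintro rfl
      rw [q', inv_submatrix_equiv, ← gk_eqv _ e]
      refine le_of_eq (congrArg _ (Set.ext fun n => ?_))
      simp only [Set.mem_ofPred_eq, dotProduct_comp_equiv_symm]
      rfl
  rw [(dd_sub (f := v) Subtype.val_injective h.unit (fun c c' z => by rw [rv, rv, lA _ _ z])
    fun i c z => (rv c).2 (h.blk _ _ z ▸ i.2)).2] at x y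
  exact ⟨x, by rintro rfl; exact y⟩

end Crest.Agent.N49.Co

end
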