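import Crest.Agent.N49.Co.Mat
import Crest.Agent.N49.Rf.Ev2
import Crest.Agent.N49.Top.Xs

/-!
# Row 49 (helper90): triangular changes of the costs of a container
-/

set_option autoImplicit false

open Matrix Finset

noncomputable section

namespace Crest.Agent.N49.Co

open Po Tw N49.Top

/-- the new costs -/
def up (X : ℕ) (c : ℕ → ℕ) (i : ℕ) : ℕ := c i + X * (1 + ∑ j ∈ range i, c j)

/-- the costs of `(T', π')` are controlled by those of `(T, π)` -/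
def Up (s X : ℕ) (T : TS Unit) (π : T.C → ℤ) (T' : TS Unit) (π' : T'.C → ℤ) : Prop :=
  ∀ (N : ℕ) (c : ℕ → ℕ) (x x' : ℤ), Cs0 s N ⟨T, π, x⟩ c → Cs0 s N ⟨T', π', x'⟩ (up X c)

variable {s X X' : ℕ} {T T' T'' : TS Unit} {π : T.C → ℤ} {π' : T'.C → ℤ} {π'' : T''.C → ℤ}

theorem cs0_mono {N : ℕ} {V : Ctr} {c c' : ℕ → ℕ} (h : Cs0 s N V c)
    (k : ∀ i ≤ 2 * s, c i ≤ c' i) : Cs0 s N V c' :=
  ⟨h.ok, fun l a => (h.R l a).trans (k _ (by omega)),
    fun l a => (h.ct l a).trans (Rf.two_le (k _ (by omega))),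
    h.g.trans (Rf.two_le (k _ (by omega)))⟩

theorem le_up (c : ℕ → ℕ) (i : ℕ) : c i ≤ up X c i := Nat.le_add_right _ _

theorem up_tri {n K m : ℕ} {c : ℕ → ℕ} (hm : 1 ≤ m) (h : X ≤ (m + Nat.log 2 (tot n c)) ^ K) :
    Tri n (K + 1) m c (up X c) := fun i _ => ⟨le_up c i, Nat.add_le_add_left (by
  have a : ∑ j ∈ range i, c j ≤ ∑ j ∈ range i, up X c j := sum_le_sum fun j _ => le_up c j
  rw [pow_succ]
  exact Nat.mul_le_mul (h.trans (Nat.pow_le_pow_left (by unfold bs; omega) _))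
    (by unfold bs; omega)) _⟩

/-- **the costs of the new container** -/
theorem Up.tri (h : Up s X T π T' π') {N K m : ℕ} {c : ℕ → ℕ} {x : ℤ} (hc : Cs0 s N ⟨T, π, x⟩ c)
    (hm : 1 ≤ m) (hX : X ≤ m ^ K) (x' : ℤ) :
    ∃ c', Cs0 s N ⟨T', π', x'⟩ c' ∧ Tri (2 * s + 1) (K + 1) m c c' :=
  ⟨_, h N c x x' hc, up_tri hm (hX.trans (Nat.pow_le_pow_left (Nat.le_add_right _ _) _))⟩

theorem Up.mono (h : Up s X T π T' π') (e : X ≤ X') : Up s X' T π T' π' := fun N c x x' k =>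
  cs0_mono (h N c x x' k) fun _ _ => Nat.add_le_add_left (Nat.mul_le_mul_right _ e) _

theorem Up.refl (s X : ℕ) (T : TS Unit) (π : T.C → ℤ) : Up s X T π T π := fun _ c _ _ k =>
  cs0_mono (V := ⟨T, π, _⟩) ⟨k.ok, k.R, k.ct, k.g⟩ fun i _ => le_up c i

theorem Up.trans (h : Up s X T π T' π') (h' : Up s X' T' π' T'' π'') :
    Up s (X + X' + 2 * s * (X * X')) T π T'' π'' := fun N c x x' k =>
  cs0_mono (h' N _ x x' (h N c x x k)) fun i hi => by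
    have a : ∑ j ∈ range i, up X c j ≤ ∑ j ∈ range i, c j + 2 * s * (X * (1 + ∑ j ∈ range i, c j)) := by
      simp only [up]
      rw [sum_add_distrib]
      refine Nat.add_le_add_left ((sum_le_card_nsmul _ _ _ fun j hj => Nat.mul_le_mul_left X
        (Nat.add_le_add_left (sum_le_sum_of_subset (range_mono (mem_range.1 hj).le)) 1)).trans ?_) _
      rw [card_range]
      exact Nat.mul_le_mul_right _ hi
    have b := Nat.mul_le_mul_left X' a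
    simp only [up] at b ⊢
    nlinarith

/-- composition for polynomial parameters -/
theorem Up.trans' {m a b : ℕ} (hm : 2 ≤ m) (h : Up s (m ^ a) T π T' π')
    (h' : Up s (m ^ b) T' π' T'' π'') : Up s (m ^ (a + b + (2 * s + 2))) T π T'' π'' :=
  (h.trans h').mono (by
    have p : 2 * s + 2 ≤ m ^ (2 * s + 2) :=
      Nat.lt_two_pow_self.le.trans (Nat.pow_le_pow_left hm _)
    have q := Nat.mul_le_mul_left (m ^ a * m ^ b) p
    have u : 1 ≤ m ^ a := Nat.one_le_pow _ _ (by omega)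
    have v : 1 ≤ m ^ b := Nat.one_le_pow _ _ (by omega)
    rw [pow_add, pow_add]
    nlinarith)

/-- the factor allowed on the level `l` -/
def fc (s : ℕ) (T : TS Unit) (l : ℕ) : ℝ :=
  (∏ j ∈ Icc (l + 1) s, T.ct j) * 2 ^ (∑ j ∈ Icc l s, T.R j + 1)

/-- the explicit form -/
structure Rw (s X : ℕ) (T : TS Unit) (π : T.C → ℤ) (T' : TS Unit) (π' : T'.C → ℤ) : Prop where
  ok : Ctr.Ok ⟨T', π', 0⟩ s
  R : ∀ l ∈ Icc 1 s, ∑ j ∈ Icc l s, T'.R j ≤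
    ∑ j ∈ Icc l s, T.R j + X * (∑ j ∈ Icc (l + 1) s, T.R j + 1)
  ct : ∀ l ∈ Icc 1 s, T'.ct l ≤ T.ct l * fc s T l ^ X
  g : T'.g1 π' ≤ T.g1 π * fc s T 1 ^ X

theorem one_le_prod (h : T.Tri) (S : Finset ℕ) : 1 ≤ ∏ j ∈ S, T.ct j :=
  prod_const_one.ge.trans (prod_le_prod (fun _ _ => zero_le_one) fun j _ => TS.one_le_ct h j)

theorem two_le_fc (h : T.Tri) (l : ℕ) : 2 ^ (∑ j ∈ Icc l s, T.R j + 1) ≤ fc s T l :=
  le_mul_of_one_le_left (by positivity) (one_le_prod h _)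

theorem one_le_fc (h : T.Tri) (l : ℕ) : 1 ≤ fc s T l :=
  (one_le_pow₀ one_le_two).trans (two_le_fc h l)

/-- **the constructor** -/
theorem Up.of (h : Ctr.Ok ⟨T, π, 0⟩ s → Rw s X T π T' π') : Up s X T π T' π' := fun N c x x' k => by
  obtain ⟨ok, a, b, g⟩ := h k.ok
  have f : ∀ l, 1 ≤ l → (0 < s → l ≤ s) →
      fc s T l ^ X ≤ 2 ^ (X * (1 + ∑ j ∈ range (2 * s - l), c j)) := fun l hl ls => by
    rw [pow_mul']
    refine pow_le_pow_left₀ (zero_le_one.trans (one_le_fc k.ok.1 l)) (?_ : fc s T l ≤ _) _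
    have p : ∏ j ∈ Icc (l + 1) s, T.ct j ≤ 2 ^ ∑ j ∈ Icc (l + 1) s, c (2 * s - j) := by
      rw [← prod_pow_eq_pow_sum]
      exact prod_le_prod (fun j _ => zero_le_one.trans (TS.one_le_ct k.ok.1 j)) fun j hj =>
        k.ct j (by simp only [mem_Icc] at hj ⊢; omega)
    refine (mul_le_mul_of_nonneg_right p (by positivity)).trans ?_
    rw [← pow_add]
    refine Rf.two_le ?_
    rcases s.eq_zero_or_pos with rfl | s0
    · simp [Icc_eq_empty (show ¬ l ≤ 0 by omega)]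
    have ls := ls s0
    have q : ∑ j ∈ Icc l s, T.R j ≤ c (s - l) := k.R l (mem_Icc.2 ⟨hl, ls⟩)
    have u : ∑ j ∈ Icc (l + 1) s, c (2 * s - j) = ∑ j ∈ Ico s (2 * s - l), c j :=
      sum_nbij' (fun j => 2 * s - j) (fun j => 2 * s - j) (by simp; omega) (by simp; omega)
        (by simp; omega) (by simp; omega) fun _ _ => rfl
    have v := sum_range_add_sum_Ico c (show s ≤ 2 * s - l by omega)
    have w : c (s - l) ≤ ∑ j ∈ range s, c j :=
      single_le_sum (f := c) (fun _ _ => Nat.zero_le _) (mem_range.2 (by omega))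
    omega
  refine ⟨ok, fun l hl => (a l hl).trans (Nat.add_le_add (k.R l hl) (Nat.mul_le_mul_left _
    ((add_comm _ _).trans_le (Nat.add_le_add_left ?_ _)))), fun l hl => (b l hl).trans ?_, ?_⟩
  · obtain ⟨l1, l2⟩ := mem_Icc.1 hl
    rcases l2.eq_or_lt with rfl | l2
    · simp
    · exact (k.R (l + 1) (mem_Icc.2 (by omega))).trans
        (single_le_sum (f := c) (fun _ _ => Nat.zero_le _)
          (mem_range.2 (show s - (l + 1) < s - l by omega)))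
  · rw [up, pow_add]
    exact mul_le_mul (k.ct l hl) (f l (mem_Icc.1 hl).1 fun _ => (mem_Icc.1 hl).2)
      (pow_nonneg (zero_le_one.trans (one_le_fc k.ok.1 l)) _) (by positivity)
  · rw [up, pow_add]
    refine (mul_le_mul_of_nonneg_left g (Nat.cast_nonneg N)).trans ?_
    rw [← mul_assoc]
    exact mul_le_mul k.g (f 1 le_rfl id) (pow_nonneg (zero_le_one.trans (one_le_fc k.ok.1 1)) _)
      (by positivity)

theorem R_le (hs : ∀ c, T.lev c ≤ s) (l : ℕ) : T.R l ≤ ∑ j ∈ Icc l s, T.R j := by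
  by_cases h : l ≤ s
  · exact single_le_sum (f := T.R) (fun _ _ => Nat.zero_le _) (mem_Icc.2 ⟨le_rfl, h⟩)
  · exact (card_eq_zero.2 (filter_false_of_mem fun c _ e => h (e.ge.trans (hs c)))).trans_le
      (Nat.zero_le _)

theorem pw_fc (h : T.Tri) (l Y : ℕ) {x : ℝ} {r : ℕ} (x0 : 0 ≤ x) (k : x ≤ 2 ^ Y)
    (hr : r ≤ ∑ j ∈ Icc l s, T.R j) : x ^ r ≤ fc s T l ^ Y := by
  refine (pow_le_pow_left₀ x0 k _).trans (le_trans ?_
    (pow_le_pow_left₀ (by positivity) (two_le_fc h l) Y))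
  rw [← pow_mul, ← pow_mul, mul_comm]
  exact Rf.two_le (Nat.mul_le_mul_right _ (hr.trans (Nat.le_succ _)))

theorem inv_le {Y : ℕ} {κ : ℝ} (k : 1 / 2 ^ Y ≤ κ) : κ⁻¹ ≤ 2 ^ Y := by
  rwa [inv_le_comm₀ (lt_of_lt_of_le (by positivity) k) (by positivity), ← one_div]

theorem pw_le_fc (h : T.Tri) (hs : ∀ c, T.lev c ≤ s) (l Y : ℕ) {κ : ℝ} (k : 1 / 2 ^ Y ≤ κ) :
    √κ⁻¹ ^ T.R l ≤ fc s T l ^ Y :=
  pw_fc h l Y (Real.sqrt_nonneg _) (Rf.sqrt_le_two_pow (inv_le k)) (R_le hs l)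

/-- **extensions**: `T'` is triangular for the rank `r`, the rank `0` is a narrowed copy of `T` -/
theorem Rw.ext {Y M : ℕ} (ok : Ctr.Ok ⟨T, π, 0⟩ s) (h' : T'.Tri) (hs : ∀ c, T'.lev c ≤ s) {r : T'.C → ℕ} (hr : ∀ c, r c ≤ M)
    (hA : ∀ c c', T'.A c c' ≠ 0 → r c' ≤ r c) (hK : ∀ c c', T'.K c c' ≠ 0 → r c = r c')
    {A0 : Matrix T'.C T'.C ℝ} (h0 : ∀ c c', A0 c c' = if r c = r c' then T'.A c c' else 0)
    (u : IsUnit A0.det) {ι : T.C → T'.C} (inj : Function.Injective ι)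
    (rg : ∀ c, c ∈ Set.range ι ↔ r c = 0) (lv : ∀ c, T'.lev (ι c) = T.lev c)
    (hπ : ∀ c, π' c ≠ 0 → r c = 0) (hπ' : ∀ c, π' (ι c) = π c) {κ : ℕ → ℝ}
    (hκ : ∀ j, 1 / 2 ^ Y ≤ κ j ∧ κ j ≤ 1)
    (hD : ∀ c c', dd A0 T'.K (ι c) (ι c') = κ (T.lev c) * T.D c c')
    (hR : ∀ l ∈ Icc 1 s, ∑ j ∈ Icc l s, T'.R j ≤
      ∑ j ∈ Icc l s, T.R j + X * (∑ j ∈ Icc (l + 1) s, T.R j + 1))
    (hβ : ∀ l ∈ Icc 1 s, ∏ t ∈ range M, th ((dd A0 T'.K).submatrix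
      (Subtype.val : Bk T' r l (t + 1) → _) Subtype.val) 0 ≤ fc s T l ^ X) :
    Rw s (X + Y) T π T' π' := by
  have h : T.Tri := ok.1
  let e : ∀ l, {c // T.lev c = l} ≃ Bk T' r l 0 := fun l => Equiv.ofBijective
    (fun c => ⟨ι c.1, (lv _).trans c.2, (rg _).1 ⟨_, rfl⟩⟩)
    ⟨fun i j z => Subtype.ext (inj (congrArg (fun c : Bk T' r l 0 => c.1) z)), fun c =>
      let ⟨j, y⟩ := (rg c.1).2 c.2.2; ⟨⟨j, by rw [← lv, y]; exact c.2.1⟩, Subtype.ext y⟩⟩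
  have q : ∀ l, ((dd A0 T'.K).submatrix (Subtype.val : Bk T' r l 0 → _) Subtype.val).submatrix
      (e l) (e l) = κ l • T.D.submatrix (Subtype.val : {c // T.lev c = l} → _) Subtype.val :=
    fun l => Matrix.ext fun i j => (hD i.1 j.1).trans (by rw [i.2]; rfl)
  have k0 : ∀ l, 0 < κ l := fun l => lt_of_lt_of_le (by positivity) (hκ l).1
  have f0 : ∀ l n, 0 ≤ fc s T l ^ n := fun l n => pow_nonneg (zero_le_one.trans (one_le_fc h l)) n
  have p1 : ∀ c, π' c ≠ 0 → T'.lev c = 1 := fun c z => by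
    obtain ⟨j, rfl⟩ := (rg c).2 (hπ c z)
    exact (lv j).trans (ok.2.2 j fun y => z ((hπ' j).trans y))
  refine ⟨⟨h', hs, p1⟩, fun l hl => (hR l hl).trans (Nat.add_le_add_left
    (Nat.mul_le_mul_right _ (Nat.le_add_right _ _)) _), fun l hl => ?_, ?_⟩
  · refine (Co.ext h' hr hA hK h0 u hπ l).1.trans ?_
    rw [← th_eqv _ (e l), q, pow_add, mul_comm (T.ct l), mul_assoc]
    refine mul_le_mul (hβ l hl) ((th_scale (h.pd_Dl l) (k0 l) (hκ l).2 0).trans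
      (mul_le_mul_of_nonneg_right ?_ (th_nonneg _ _))) (th_nonneg _ _) (f0 _ _)
    rw [TS.card_lev, ← Real.sqrt_inv]
    exact pw_le_fc h ok.2.1 l Y (hκ l).1
  · rcases s.eq_zero_or_pos with rfl | s0
    · have a : ∀ {U : TS Unit} (p : U.C → ℤ), U.Tri → (∀ c, U.lev c ≤ 0) → U.g1 p = 1 :=
        fun {U} p t z => by
          have : IsEmpty {c // U.lev c = 1} := ⟨fun c => by have := z c.1; have := c.2; omega⟩
          rw [TS.g1, show {n | (fun c : {c // U.lev c = 1} => p c.1) ⬝ᵥ n = 0} = Set.univ from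
            Set.eq_univ_of_forall fun n => by simp [dotProduct], Sp.gk, Sp.ks_univ]
          exact div_self (th_pos (t.pd_Dl 1).inv 0).ne'
      rw [a π' h' hs, a π h ok.2.1, one_mul]
      exact one_le_pow₀ (one_le_fc h 1)
    refine ((Co.ext h' hr hA hK h0 u hπ 1).2 rfl).trans ?_
    have z := gk_eqv ((dd A0 T'.K).submatrix (Subtype.val : Bk T' r 1 0 → _) Subtype.val)⁻¹ (e 1)
      {n | (fun c : Bk T' r 1 0 => π' c.1) ⬝ᵥ n = 0}
    rw [← inv_submatrix_equiv, q, inv_smul' (h.pd_Dl 1) (k0 1).ne'] at z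
    rw [← z, pow_add, mul_comm (T.g1 π), mul_assoc]
    refine mul_le_mul (hβ 1 (mem_Icc.2 ⟨le_rfl, s0⟩)) ((Sp.gk_smul (h.pd_Dl 1).inv
      ((one_le_inv₀ (k0 1)).2 (hκ 1).2) _).trans (mul_le_mul ?_ (le_of_eq ?_) (Sp.gk_nonneg _ _)
        (f0 _ _))) (Sp.gk_nonneg _ _) (f0 _ _)
    · rw [TS.card_lev]
      exact pw_le_fc h ok.2.1 1 Y (hκ 1).1
    · refine congrArg _ (Set.ext fun n => ?_)
      simp only [Set.mem_ofPred_eq, dotProduct_comp_equiv_symm]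
      rw [show (fun c : Bk T' r 1 0 => π' c.1) ∘ e 1 = fun c => π c.1 from funext fun c => hπ' _]

/-- same grading and same dual form -/
theorem Rw.of_D {Φ : T.C → MvPolynomial T.C ℝ} {K : Matrix T.C T.C ℝ} (ok : Ctr.Ok ⟨T, π, 0⟩ s)
    (h : ({ C := T.C, deg := T.deg, Φ := Φ, K := K } : TS Unit).Tri)
    (e : ({ C := T.C, deg := T.deg, Φ := Φ, K := K } : TS Unit).D = T.D) :
    Rw s 0 T π { C := T.C, deg := T.deg, Φ := Φ, K := K } π :=
  ⟨⟨h, ok.2⟩, fun _ _ => Nat.le_add_right _ _, fun l _ => by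
    rw [pow_zero, mul_one]; unfold TS.ct; rw [e]; rfl,
    by rw [pow_zero, mul_one, T.g1_of_D fun c c' _ _ => by rw [e]]⟩

theorem Up.of_D {Φ : T.C → MvPolynomial T.C ℝ} {K : Matrix T.C T.C ℝ}
    (h : ({ C := T.C, deg := T.deg, Φ := Φ, K := K } : TS Unit).Tri)
    (e : ({ C := T.C, deg := T.deg, Φ := Φ, K := K } : TS Unit).D = T.D) (π : T.C → ℤ) :
    Up s 0 T π { C := T.C, deg := T.deg, Φ := Φ, K := K } π := Up.of fun ok => Rw.of_D ok h e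

/-- multiples of `π` -/
theorem Up.smul (T : TS Unit) (π : T.C → ℤ) {n : ℤ} (hn : n ≠ 0) : Up s 0 T π T (n • π) :=
  Up.of fun ok => ⟨⟨ok.1, ok.2.1, fun c z => ok.2.2 c fun y => z (by simp [show π c = 0 from y])⟩,
    fun _ _ => Nat.le_add_right _ _, fun l _ => by rw [pow_zero, mul_one],
    by rw [pow_zero, mul_one, T.g1_smul hn]⟩

/-- narrowing -/
theorem Rw.shr {Y : ℕ} {lam : ℕ → ℝ} (ok : Ctr.Ok ⟨T, π, 0⟩ s)
    (h : ∀ j, 1 / 2 ^ Y ≤ lam j ∧ lam j ≤ 1) : Rw s Y T π (T.shr lam) π := by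
  have t : T.Tri := ok.1
  have k0 : ∀ l, 0 < lam l := fun l => lt_of_lt_of_le (by positivity) (h l).1
  have a : ∀ l, (lam l)⁻¹ ^ T.R l ≤ fc s T l ^ Y := fun l =>
    pw_fc t l Y (inv_pos.2 (k0 l)).le (inv_le (h l).1) (R_le ok.2.1 l)
  refine ⟨⟨t.shr fun l => (k0 l).ne', ok.2⟩, fun _ _ => Nat.le_add_right _ _, fun l _ =>
    (t.shr_ct (k0 l) (h l).2).trans ?_, (t.shr_g1 (k0 1) (h 1).2 π).trans ?_⟩ <;> rw [mul_comm]
  · exact mul_le_mul_of_nonneg_left (a l) (th_nonneg _ _)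
  · exact mul_le_mul_of_nonneg_left (a 1) (Sp.gk_nonneg _ _)

theorem Up.shr {Y : ℕ} (T : TS Unit) (π : T.C → ℤ) {lam : ℕ → ℝ}
    (h : ∀ j, 1 / 2 ^ Y ≤ lam j ∧ lam j ≤ 1) : Up s Y T π (T.shr lam) π :=
  Up.of fun ok => Rw.shr ok h

end Crest.Agent.N49.Co

end
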